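import Mathlib

/-! A truncated inclusion-exclusion lower bound for integers free of given primes. -/

namespace Vale.Agent.P013

open Finset

variable (a : ℤ) (L : ℕ)

/-- The number of multiples of `d` among the `L` integers from `a` on. -/
noncomputable def mult (d : ℕ) : ℝ :=
  (((Ico a (a + L)).filter fun x => (d : ℤ) ∣ x).card : ℝ)

theorem mult_bounds {d : ℕ} (hd : 0 < d) :
    (L : ℝ) / d - 1 ≤ mult a L d ∧ mult a L d ≤ (L : ℝ) / d + 1 := by
  have hd' : (0 : ℤ) < d := by exact_mod_cast hd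
  have hq : (0 : ℚ) < d := by exact_mod_cast hd
  have hc := Int.Ico_filter_dvd_card a (a + L) hd'
  set c := ((Ico a (a + L)).filter fun x => (d : ℤ) ∣ x).card with hcdef
  have h1 := Int.ceil_lt_add_one (((a + L : ℤ) : ℚ) / ((d : ℤ) : ℚ))
  have h2 := Int.le_ceil (((a + L : ℤ) : ℚ) / ((d : ℤ) : ℚ))
  have h3 := Int.ceil_lt_add_one ((a : ℚ) / ((d : ℤ) : ℚ))
  have h4 := Int.le_ceil ((a : ℚ) / ((d : ℤ) : ℚ))
  have hpos : (0 : ℚ) ≤ (L : ℚ) / d := by positivity
  have hc' : ((c : ℤ) : ℚ) = max ((⌈((a + L : ℤ) : ℚ) / ((d : ℤ) : ℚ)⌉ : ℚ)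
      - ⌈(a : ℚ) / ((d : ℤ) : ℚ)⌉) 0 := by exact_mod_cast congrArg (Int.cast : ℤ → ℚ) hc
  push_cast [add_div] at h1 h2 h3 h4 hc'
  have hlo : (L : ℚ) / d - 1 ≤ (c : ℚ) := by
    rw [hc']; exact le_max_of_le_left (by linarith)
  have hhi : (c : ℚ) ≤ (L : ℚ) / d + 1 := by
    rw [hc']; exact max_le (by linarith) (by linarith)
  have hlo' := (Rat.cast_le (K := ℝ)).2 hlo
  have hhi' := (Rat.cast_le (K := ℝ)).2 hhi
  push_cast at hlo' hhi'
  exact ⟨hlo', hhi'⟩

theorem sum_dvd_eq (T : Finset ℕ) :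
    ∑ x ∈ Ico a (a + L), ((T.filter fun p : ℕ => (p : ℤ) ∣ x).card : ℝ) = ∑ p ∈ T, mult a L p := by
  simp_rw [mult, card_filter, Nat.cast_sum]
  exact sum_comm

/-- Third-order truncation on `S`, union bound on `B`. -/
theorem bonferroni (S B : Finset ℕ) (hS : ∀ p ∈ S, p.Prime) (hB : ∀ p ∈ B, p.Prime) :
    (L : ℝ) * (1 - (∑ p ∈ S, 1 / (p : ℝ)) + (∑ p ∈ S, 1 / (p : ℝ)) ^ 2 / 2
        - (∑ p ∈ S, 1 / (p : ℝ)) ^ 3 / 6 - (∑ p ∈ S, 1 / (p : ℝ) ^ 2) / 2
        - ∑ p ∈ B, 1 / (p : ℝ))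
      - (S.card + (S.card : ℝ) ^ 2 + (S.card : ℝ) ^ 3 + B.card) ≤
      (((Ico a (a + L)).filter fun x : ℤ => (∀ p : ℕ, p ∈ S → ¬ (p : ℤ) ∣ x) ∧
        ∀ p : ℕ, p ∈ B → ¬ (p : ℤ) ∣ x).card : ℝ) := by
  classical
  let ind : ℕ → ℤ → ℝ := fun p x => if (p : ℤ) ∣ x then 1 else 0
  let t : ℤ → ℝ := fun x => ∑ p ∈ S, ind p x
  let u : ℤ → ℝ := fun x => ∑ p ∈ B, ind p x
  let good : ℤ → Prop := fun x => (∀ p : ℕ, p ∈ S → ¬ (p : ℤ) ∣ x) ∧ ∀ p : ℕ, p ∈ B → ¬ (p : ℤ) ∣ x
  set X := Ico a (a + L) with hX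
  -- pointwise
  have hpt : ∀ x, 1 - t x + t x * (t x - 1) / 2 - t x * (t x - 1) * (t x - 2) / 6 - u x
      ≤ if good x then (1 : ℝ) else 0 := by
    intro x
    have ht : t x = ((S.filter fun p : ℕ => (p : ℤ) ∣ x).card : ℝ) := by
      simp only [t, ind, sum_boole]
    have hu : u x = ((B.filter fun p : ℕ => (p : ℤ) ∣ x).card : ℝ) := by
      simp only [u, ind, sum_boole]
    rw [ht, hu]
    set j := (S.filter fun p : ℕ => (p : ℤ) ∣ x).card with hj
    set i := (B.filter fun p : ℕ => (p : ℤ) ∣ x).card with hi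
    have hfall : j ≠ 0 → 1 - (j : ℝ) + (j : ℝ) * (j - 1) / 2 - (j : ℝ) * (j - 1) * (j - 2) / 6 ≤ 0 := by
      intro hj0
      match j with
      | 0 => exact absurd rfl hj0
      | 1 => norm_num
      | 2 => norm_num
      | 3 => norm_num
      | (w + 4) =>
        push_cast
        nlinarith [sq_nonneg (w : ℝ), (Nat.cast_nonneg w : (0 : ℝ) ≤ w),
          mul_nonneg (mul_nonneg (Nat.cast_nonneg w : (0 : ℝ) ≤ w) (Nat.cast_nonneg w))
            (Nat.cast_nonneg w : (0 : ℝ) ≤ w)]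
    by_cases hg : good x
    · have hj0 : j = 0 := card_eq_zero.2 (filter_eq_empty_iff.2 fun p hp => hg.1 p hp)
      have hi0 : i = 0 := card_eq_zero.2 (filter_eq_empty_iff.2 fun p hp => hg.2 p hp)
      simp [hg, hj0, hi0]
    · rw [if_neg hg]
      rcases Nat.eq_zero_or_pos j with hj0 | hj0
      · have hi0 : 0 < i := by
          by_contra h
          have hS' := filter_eq_empty_iff.1 (card_eq_zero.1 hj0)
          have hB' := filter_eq_empty_iff.1 (card_eq_zero.1 (show i = 0 by omega))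
          exact hg ⟨fun p hp => hS' hp, fun p hp => hB' hp⟩
        have : (1 : ℝ) ≤ i := by exact_mod_cast hi0
        simp [hj0]
        linarith
      · linarith [hfall (by omega), (Nat.cast_nonneg i : (0 : ℝ) ≤ i)]
  -- moments
  have hsum1 : ∀ T : Finset ℕ, (∀ p ∈ T, p.Prime) → ∑ x ∈ X, ∑ p ∈ T, ind p x
      ≤ L * (∑ p ∈ T, 1 / (p : ℝ)) + T.card := by
    intro T hT
    rw [sum_comm]
    calc ∑ p ∈ T, ∑ x ∈ X, ind p x = ∑ p ∈ T, mult a L p := by
          simp [ind, mult, sum_boole, hX]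
      _ ≤ ∑ p ∈ T, ((L : ℝ) / p + 1) := sum_le_sum fun p hp => (mult_bounds a L (hT p hp).pos).2
      _ = _ := by rw [sum_add_distrib, mul_sum]; simp [div_eq_mul_inv]
  have hidem : ∀ p x, ind p x * ind p x = ind p x := fun p x => by simp [ind]
  have hprod : ∀ p ∈ S, ∀ q ∈ S, p ≠ q → ∀ x, ind p x * ind q x = ind (p * q) x := by
    intro p hp q hq hpq x
    have hco : IsCoprime (p : ℤ) q :=
      Nat.isCoprime_iff_coprime.2 ((Nat.coprime_primes (hS p hp) (hS q hq)).2 hpq)
    simp only [ind]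
    push_cast
    by_cases h1 : (p : ℤ) ∣ x <;> by_cases h2 : (q : ℤ) ∣ x <;> simp [h1, h2]
    · exact hco.mul_dvd h1 h2
    · exact fun h => h2 (dvd_trans (dvd_mul_left _ _) h)
    · exact fun h => h1 (dvd_trans (dvd_mul_right _ _) h)
    · exact fun h => h1 (dvd_trans (dvd_mul_right _ _) h)
  have hmult : ∀ d, ∑ x ∈ X, ind d x = mult a L d := fun d => by simp [ind, mult, sum_boole, hX]
  have ht2 : ∀ x, t x * (t x - 1) = ∑ p ∈ S, ∑ q ∈ S.erase p, ind p x * ind q x := by
    intro x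
    calc t x * (t x - 1) = ∑ p ∈ S, ind p x * (t x - 1) := sum_mul S (fun p => ind p x) _
      _ = _ := sum_congr rfl fun p hp => by
        rw [← mul_sum, sum_erase_eq_sub hp]
        simp only [t]
        linear_combination hidem p x
  have ht3 : ∀ x, t x * (t x - 1) * (t x - 2)
      = ∑ p ∈ S, ∑ q ∈ S.erase p, ∑ r ∈ (S.erase p).erase q, ind p x * ind q x * ind r x := by
    intro x
    rw [ht2, sum_mul]
    refine sum_congr rfl fun p hp => ?_
    rw [sum_mul]
    refine sum_congr rfl fun q hq => ?_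
    rw [← mul_sum, sum_erase_eq_sub hq, sum_erase_eq_sub hp]
    have h1 : ind p x * ind q x * ind p x = ind p x * ind q x := by
      rw [mul_right_comm, hidem]
    have h2 : ind p x * ind q x * ind q x = ind p x * ind q x := by
      rw [mul_assoc, hidem]
    simp only [t]
    linear_combination h1 + h2
  have hsum2 : (L : ℝ) * ((∑ p ∈ S, 1 / (p : ℝ)) ^ 2 - ∑ p ∈ S, 1 / (p : ℝ) ^ 2) - (S.card : ℝ) ^ 2
      ≤ ∑ x ∈ X, t x * (t x - 1) := by
    simp_rw [ht2]
    rw [sum_comm]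
    calc (L : ℝ) * ((∑ p ∈ S, 1 / (p : ℝ)) ^ 2 - ∑ p ∈ S, 1 / (p : ℝ) ^ 2) - (S.card : ℝ) ^ 2
        = ∑ p ∈ S, ((∑ q ∈ S.erase p, (L : ℝ) / ((p : ℝ) * q)) - S.card) := by
          rw [sum_sub_distrib, sum_const, nsmul_eq_mul, sq, sq, sum_mul, ← sum_sub_distrib, mul_sum]
          congr 1
          refine sum_congr rfl fun p hp => ?_
          rw [sum_erase_eq_sub hp]
          simp only [div_eq_mul_inv, mul_inv, one_mul, ← mul_sum]
          ring
      _ ≤ ∑ p ∈ S, ∑ q ∈ S.erase p, ((L : ℝ) / ((p : ℝ) * q) - 1) := by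
          refine sum_le_sum fun p _ => ?_
          rw [sum_sub_distrib, sum_const, nsmul_eq_mul, mul_one]
          have : ((S.erase p).card : ℝ) ≤ S.card := by exact_mod_cast card_erase_le
          linarith
      _ ≤ _ := by
          refine sum_le_sum fun p hp => ?_
          rw [sum_comm]
          refine sum_le_sum fun q hq => ?_
          obtain ⟨hqp, hqS⟩ := mem_erase.1 hq
          simp_rw [hprod p hp q hqS (Ne.symm hqp), hmult]
          have := (mult_bounds a L (Nat.mul_pos (hS p hp).pos (hS q hqS).pos)).1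
          push_cast at this
          exact this
  have hsum3 : ∑ x ∈ X, t x * (t x - 1) * (t x - 2)
      ≤ (L : ℝ) * (∑ p ∈ S, 1 / (p : ℝ)) ^ 3 + (S.card : ℝ) ^ 3 := by
    simp_rw [ht3]
    calc _ ≤ ∑ p ∈ S, ∑ q ∈ S, ∑ r ∈ S, ((L : ℝ) / ((p : ℝ) * q * r) + 1) := by
          rw [sum_comm]
          refine sum_le_sum fun p hp => ?_
          rw [sum_comm]
          refine (sum_le_sum fun q hq => ?_).trans
            (sum_le_sum_of_subset_of_nonneg (erase_subset _ _) fun q _ _ => by positivity)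
          rw [sum_comm]
          refine (sum_le_sum fun r hr => ?_).trans (sum_le_sum_of_subset_of_nonneg
            ((erase_subset _ _).trans (erase_subset _ _)) fun r _ _ => by positivity)
          obtain ⟨hqp, hqS⟩ := mem_erase.1 hq
          obtain ⟨hrq, hr'⟩ := mem_erase.1 hr
          obtain ⟨hrp, hrS⟩ := mem_erase.1 hr'
          have hco : Nat.Coprime (p * q) r :=
            ((Nat.coprime_primes (hS p hp) (hS r hrS)).2 (Ne.symm hrp)).mul_left
              ((Nat.coprime_primes (hS q hqS) (hS r hrS)).2 (Ne.symm hrq))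
          have heq : ∀ x, ind p x * ind q x * ind r x = ind (p * q * r) x := by
            intro x
            rw [hprod p hp q hqS (Ne.symm hqp)]
            simp only [ind, Nat.cast_mul]
            by_cases h1 : ((p : ℤ) * q) ∣ x <;> by_cases h2 : (r : ℤ) ∣ x <;> simp [h1, h2]
            · exact (by exact_mod_cast Nat.isCoprime_iff_coprime.2 hco :
                IsCoprime ((p : ℤ) * q) r).mul_dvd h1 h2
            · exact fun h => h2 (dvd_trans (dvd_mul_left _ _) h)
            · exact fun h => h1 (dvd_trans (dvd_mul_right _ _) h)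
            · exact fun h => h1 (dvd_trans (dvd_mul_right _ _) h)
          simp_rw [heq, hmult]
          have := (mult_bounds a L
            (Nat.mul_pos (Nat.mul_pos (hS p hp).pos (hS q hqS).pos) (hS r hrS).pos)).2
          push_cast at this
          exact this
      _ = _ := by
          simp only [sum_add_distrib, sum_const, nsmul_eq_mul, mul_one, div_eq_mul_inv, mul_inv,
            one_mul, ← mul_sum, ← sum_mul, pow_three, mul_assoc]
  have hcount : (((Ico a (a + L)).filter good).card : ℝ) = ∑ x ∈ X, if good x then (1 : ℝ) else 0 := by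
    rw [sum_boole, hX]
  have hmain : ∑ x ∈ X, (1 - t x + t x * (t x - 1) / 2 - t x * (t x - 1) * (t x - 2) / 6 - u x)
      ≤ ∑ x ∈ X, if good x then (1 : ℝ) else 0 := sum_le_sum fun x _ => hpt x
  simp only [sum_sub_distrib, sum_add_distrib, ← sum_div] at hmain
  have hone : ∑ _x ∈ X, (1 : ℝ) = L := by simp [hX]
  have hu := hsum1 B hB
  have ht := hsum1 S hS
  have hs2 : 0 ≤ (S.card : ℝ) ^ 2 := sq_nonneg _
  have hs3 : 0 ≤ (S.card : ℝ) ^ 3 := by positivity
  rw [← hcount, hone] at hmain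
  refine le_trans ?_ hmain
  linarith

end Vale.Agent.P013
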