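import Mathlib

/-! Upper bounds for sums of reciprocals of primes over a range, after Mertens. -/

namespace Vale.Agent.P013

open Finset Real
open ArithmeticFunction hiding log

/-- The weighted sum in Mertens's first theorem. -/
noncomputable def lam (n : ℕ) : ℝ := ∑ d ∈ Icc 1 n, Λ d / d

theorem log_factorial_eq (n : ℕ) :
    log (n.factorial) = ∑ d ∈ Icc 1 n, Λ d * ((n / d : ℕ) : ℝ) := by
  induction n with
  | zero => simp
  | succ n ih =>
    have hdiv : ∀ d ∈ Icc 1 (n + 1), Λ d * (((n + 1) / d : ℕ) : ℝ)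
        = Λ d * ((n / d : ℕ) : ℝ) + if d ∣ n + 1 then Λ d else 0 := fun d _ => by
      rw [Nat.succ_div]
      split_ifs <;> push_cast <;> ring
    rw [sum_congr rfl hdiv, sum_add_distrib, ← sum_filter,
      show (Icc 1 (n + 1)).filter (· ∣ n + 1) = (n + 1).divisors by
        ext d
        simp only [mem_filter, mem_Icc, Nat.mem_divisors]
        exact ⟨fun h => ⟨h.2, by omega⟩, fun h => ⟨⟨Nat.pos_of_dvd_of_pos h.1 (by omega),
          Nat.le_of_dvd (by omega) h.1⟩, h.1⟩⟩,
      vonMangoldt_sum, sum_Icc_succ_top (by omega), Nat.div_eq_of_lt (Nat.lt_succ_self n),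
      Nat.cast_zero, mul_zero, add_zero, ← ih, Nat.factorial_succ, Nat.cast_mul,
      log_mul (by positivity) (by positivity)]
    ring

theorem lam_bounds :
    ∃ C : ℝ, ∀ n : ℕ, 1 ≤ n → log n - 1 ≤ lam n ∧ lam n ≤ log n + C := by
  refine ⟨log 4 + 4, fun n hn => ?_⟩
  have hn0 : (0 : ℝ) < n := by exact_mod_cast hn
  have hfac := log_factorial_eq n
  have h1 : log (n.factorial) ≤ n * lam n := by
    rw [hfac, lam, mul_sum]
    refine sum_le_sum fun d hd => ?_
    have hd' : (0 : ℝ) < d := by exact_mod_cast (mem_Icc.1 hd).1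
    rw [mul_comm ((n : ℝ)) _, div_mul_eq_mul_div, le_div_iff₀ hd', mul_assoc]
    refine mul_le_mul_of_nonneg_left ?_ vonMangoldt_nonneg
    exact_mod_cast Nat.div_mul_le_self n d
  have h2 : n * lam n ≤ log (n.factorial) + Chebyshev.psi n := by
    rw [hfac, lam, mul_sum, Chebyshev.psi, Nat.floor_natCast,
      show Ioc 0 n = Icc 1 n by ext d; simp only [mem_Ioc, mem_Icc]; omega, ← sum_add_distrib]
    refine sum_le_sum fun d hd => ?_
    have hd' : (0 : ℝ) < d := by exact_mod_cast (mem_Icc.1 hd).1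
    rw [mul_comm ((n : ℝ)) _, div_mul_eq_mul_div, div_le_iff₀ hd']
    have hlt : (n : ℝ) ≤ ((n / d : ℕ) : ℝ) * d + d := by
      exact_mod_cast (by
        have := Nat.div_add_mod' n d
        have := Nat.mod_lt n (mem_Icc.1 hd).1
        omega : n ≤ n / d * d + d)
    nlinarith [vonMangoldt_nonneg (n := d)]
  have hup : log (n.factorial) ≤ n * log n := by
    rw [← log_pow]
    exact log_le_log (by positivity) (by exact_mod_cast Nat.factorial_le_pow n)
  have hlo : n * log n - n ≤ log (n.factorial) := by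
    have := Stirling.le_log_factorial_stirling (show n ≠ 0 by omega)
    have : 0 ≤ log (2 * π * n) := log_nonneg (by
      nlinarith [pi_gt_three, show (1 : ℝ) ≤ n by exact_mod_cast hn])
    have hl : 0 ≤ log (n : ℝ) := log_nonneg (by exact_mod_cast hn)
    have : 0 ≤ log (2 * π) := log_nonneg (by nlinarith [pi_gt_three])
    linarith
  have hpsi := Chebyshev.psi_le_const_mul_self hn0.le
  constructor <;> nlinarith

/-- Reciprocals of primes in `(X, X ^ (r ^ m)]` sum to at most `m (r - 1) + o(1)`. -/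
theorem prime_range : ∃ K : ℝ, 0 ≤ K ∧ ∀ (X r : ℝ) (m : ℕ) (S : Finset ℕ), 2 ≤ X → 1 ≤ r →
    (∀ p ∈ S, p.Prime ∧ X < p ∧ (p : ℝ) ≤ X ^ (r ^ m)) →
    ∑ p ∈ S, 1 / (p : ℝ) ≤ m * (r - 1) + m * K / log X := by
  obtain ⟨C, hC⟩ := lam_bounds
  have hC0 : -1 ≤ C := by linarith [(hC 1 le_rfl).1, (hC 1 le_rfl).2]
  refine ⟨C + 1 + log 2, by linarith [log_nonneg (show (1 : ℝ) ≤ 2 by norm_num)],
    fun X r m => ?_⟩
  intro S hX hr
  induction m generalizing S with
  | zero =>
    intro hS
    rw [sum_eq_zero fun p hp => ?_]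
    · simp
    · have := hS p hp
      simp only [pow_zero, rpow_one] at this
      linarith
  | succ m ih =>
    intro hS
    set Y := X ^ (r ^ m) with hY
    set Z := X ^ (r ^ (m + 1)) with hZ
    have hlogX : 0 < log X := log_pos (by linarith)
    have hrm : 1 ≤ r ^ m := one_le_pow₀ hr
    have hXY : X ≤ Y := by
      calc X = X ^ (1 : ℝ) := (rpow_one X).symm
        _ ≤ Y := rpow_le_rpow_of_exponent_le (by linarith) hrm
    have hYZ : Y ≤ Z := rpow_le_rpow_of_exponent_le (by linarith) (pow_le_pow_right₀ hr (by omega))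
    have hlogY : log Y = r ^ m * log X := log_rpow (by linarith) _
    have hlogZ : log Z = r ^ (m + 1) * log X := log_rpow (by linarith) _
    have hlogY0 : 0 < log Y := by rw [hlogY]; positivity
    rw [← sum_filter_add_sum_filter_not S (fun p : ℕ => (p : ℝ) ≤ Y)]
    have hlow := ih (S.filter fun p : ℕ => (p : ℝ) ≤ Y) fun p hp =>
      ⟨(hS p (mem_filter.1 hp).1).1, (hS p (mem_filter.1 hp).1).2.1, (mem_filter.1 hp).2⟩
    set T := S.filter fun p : ℕ => ¬ (p : ℝ) ≤ Y
    have hlam : ∑ p ∈ T, log p / (p : ℝ) ≤ lam ⌊Z⌋₊ - lam ⌊Y⌋₊ := by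
      have hle : ⌊Y⌋₊ ≤ ⌊Z⌋₊ := Nat.floor_le_floor hYZ
      rw [lam, lam, ← sum_sdiff_eq_sub (Icc_subset_Icc_right hle)]
      calc ∑ p ∈ T, log p / (p : ℝ) = ∑ p ∈ T, Λ p / (p : ℝ) := sum_congr rfl fun p hp => by
            rw [vonMangoldt_apply_prime (hS p (mem_filter.1 hp).1).1]
        _ ≤ _ := by
          refine sum_le_sum_of_subset_of_nonneg (fun p hp => ?_)
            fun p _ _ => div_nonneg vonMangoldt_nonneg p.cast_nonneg
          obtain ⟨hpS, hpY⟩ := mem_filter.1 hp
          have h := hS p hpS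
          simp only [mem_sdiff, mem_Icc]
          refine ⟨⟨h.1.one_lt.le, Nat.le_floor h.2.2⟩, fun h' => hpY ?_⟩
          exact le_trans (Nat.cast_le.2 h'.2) (Nat.floor_le (by linarith))
    have hfloor : log Y - log 2 ≤ log (⌊Y⌋₊ : ℕ) := by
      rw [← log_div (by linarith) (by norm_num)]
      refine log_le_log (by linarith) ?_
      have := Nat.lt_floor_add_one Y
      linarith
    have hY1 : 1 ≤ ⌊Y⌋₊ := Nat.le_floor (by push_cast; linarith)
    have hZ1 : 1 ≤ ⌊Z⌋₊ := Nat.le_floor (by push_cast; linarith)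
    have hceil : log (⌊Z⌋₊ : ℕ) ≤ log Z :=
      log_le_log (by exact_mod_cast hZ1) (Nat.floor_le (by linarith))
    have hsum : log Y * ∑ p ∈ T, 1 / (p : ℝ) ≤ log Y * (r - 1) + (C + 1 + log 2) := by
      calc log Y * ∑ p ∈ T, 1 / (p : ℝ) = ∑ p ∈ T, log Y / p := by
            rw [mul_sum]; simp [div_eq_mul_inv]
        _ ≤ ∑ p ∈ T, log p / (p : ℝ) := by
            refine sum_le_sum fun p hp => div_le_div_of_nonneg_right
              (log_le_log (by linarith) ?_) p.cast_nonneg
            exact (lt_of_not_ge (mem_filter.1 hp).2).le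
        _ ≤ log Z - log Y + (C + 1 + log 2) := by
            linarith [(hC _ hY1).1, (hC _ hZ1).2]
        _ = _ := by rw [hlogY, hlogZ, pow_succ]; ring
    have hK0 : 0 ≤ C + 1 + log 2 := by linarith [log_nonneg (show (1 : ℝ) ≤ 2 by norm_num)]
    have hhigh : ∑ p ∈ T, 1 / (p : ℝ) ≤ (r - 1) + (C + 1 + log 2) / log X := by
      have h1 : (C + 1 + log 2) / log Y ≤ (C + 1 + log 2) / log X :=
        div_le_div_of_nonneg_left hK0 hlogX (log_le_log (by linarith) hXY)
      have h2 : ∑ p ∈ T, 1 / (p : ℝ) ≤ (log Y * (r - 1) + (C + 1 + log 2)) / log Y := by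
        rw [le_div_iff₀ hlogY0]; linarith
      rw [add_div, mul_div_cancel_left₀ _ hlogY0.ne'] at h2
      linarith
    refine (add_le_add hlow hhigh).trans (le_of_eq ?_)
    push_cast
    ring

end Vale.Agent.P013
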