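import Vale.Agent.P013.Mertens
import Vale.Agent.P013.Sieve

/-! Integers coprime to `n` in short intervals when all prime factors of `n` exceed `k ^ (3/10)`. -/

namespace Vale.Agent.P013

open Finset Real Filter

theorem short_interval : ∃ k₀ : ℕ, ∀ k : ℕ, k₀ ≤ k → ∀ n : ℕ, n ≠ 0 → n.primeFactors.card ≤ k →
    (∀ p ∈ n.primeFactors, k ^ 3 < p ^ 10) → ∀ (a : ℤ) (L : ℕ), (k : ℝ) ^ (199 / 100 : ℝ) ≤ L →
      ∃ x ∈ Ico a (a + L), Int.gcd x n = 1 := by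
  obtain ⟨C, hC0, hC⟩ := prime_range
  have hbig : ∀ c : ℝ, 0 < c → ∀ b : ℝ, ∀ᶠ k : ℕ in atTop, b ≤ (k : ℝ) ^ c := fun c hc b =>
    ((tendsto_rpow_atTop hc).comp tendsto_natCast_atTop_atTop).eventually_ge_atTop b
  have hlog : ∀ b : ℝ, ∀ᶠ k : ℕ in atTop, b ≤ log (k : ℝ) := fun b =>
    (tendsto_log_atTop.comp tendsto_natCast_atTop_atTop).eventually_ge_atTop b
  obtain ⟨k₀, hk₀⟩ := eventually_atTop.1 ((hbig (3 / 10) (by norm_num) 1000).and
    ((hbig (12 / 1000) (by norm_num) 2000).and ((hbig (1 / 100) (by norm_num) 10001).and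
      ((hlog (70 * C * 1000)).and (eventually_ge_atTop 2)))))
  refine ⟨k₀, fun k hk n hn hcard hbigp a L hL => ?_⟩
  obtain ⟨hA, hB', hD, hlk, hk2⟩ := hk₀ k hk
  set K := (k : ℝ) with hKdef
  have hK1 : 1 < K := by
    have : (2 : ℝ) ≤ K := by rw [hKdef]; exact_mod_cast hk2
    linarith
  have hK0 : 0 < K := by linarith
  have hlogK : 0 < log K := log_pos hK1
  set X := K ^ (3 / 10 : ℝ) with hX
  set W := K ^ (66 / 100 : ℝ) with hW
  set P := n.primeFactors with hP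
  set S := P.filter fun p : ℕ => (p : ℝ) ≤ W
  set B := P.filter fun p : ℕ => ¬ (p : ℝ) ≤ W
  have hpX : ∀ p ∈ P, X < p := by
    intro p hp
    have h : K ^ (3 : ℕ) < (p : ℝ) ^ (10 : ℕ) := by rw [hKdef]; exact_mod_cast hbigp p hp
    refine lt_of_pow_lt_pow_left₀ 10 p.cast_nonneg ?_
    rwa [hX, ← rpow_natCast _ 10, ← rpow_mul hK0.le, show (3 / 10 : ℝ) * (10 : ℕ) = (3 : ℕ) by
      norm_num, rpow_natCast]
  have hprime : ∀ p ∈ P, p.Prime := fun p hp => Nat.prime_of_mem_primeFactors hp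
  have hXW : X ≤ W := rpow_le_rpow_of_exponent_le hK1.le (by norm_num)
  -- primes up to W
  have hs : ∑ p ∈ S, 1 / (p : ℝ) ≤ 0.8 := by
    have h := hC X (203 / 200) 53 S (by linarith) (by norm_num) fun p hp => by
      obtain ⟨hpP, hpW⟩ := mem_filter.1 hp
      refine ⟨hprime p hpP, hpX p hpP, hpW.trans ?_⟩
      rw [hX, hW, ← rpow_mul hK0.le]
      exact rpow_le_rpow_of_exponent_le hK1.le (by norm_num)
    have h2 : (53 : ℕ) * C / log X ≤ 0.005 := by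
      rw [hX, log_rpow hK0, div_le_iff₀ (by positivity)]
      push_cast
      linarith
    push_cast at h h2
    linarith
  -- primes beyond W
  set B₁ := B.filter fun p : ℕ => (p : ℝ) ≤ W ^ ((101 / 100 : ℝ) ^ 43)
  set B₂ := B.filter fun p : ℕ => ¬ (p : ℝ) ≤ W ^ ((101 / 100 : ℝ) ^ 43)
  have hs1 : ∑ p ∈ B₁, 1 / (p : ℝ) ≤ 0.431 := by
    have h := hC W (101 / 100) 43 B₁ (by linarith) (by norm_num) fun p hp => by
      obtain ⟨hpB, hp1⟩ := mem_filter.1 hp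
      obtain ⟨hpP, hpW⟩ := mem_filter.1 hpB
      exact ⟨hprime p hpP, not_le.1 hpW, hp1⟩
    have h2 : (43 : ℕ) * C / log W ≤ 0.001 := by
      rw [hW, log_rpow hK0, div_le_iff₀ (by positivity)]
      push_cast
      linarith
    push_cast at h h2
    linarith
  have hs2 : ∑ p ∈ B₂, 1 / (p : ℝ) ≤ 0.0005 := by
    have hterm : ∀ p ∈ B₂, 1 / (p : ℝ) ≤ 1 / (K * K ^ (12 / 1000 : ℝ)) := by
      intro p hp
      have h := not_le.1 (mem_filter.1 hp).2
      refine div_le_div_of_nonneg_left zero_le_one (by positivity) (le_trans ?_ h.le)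
      rw [hW, ← rpow_mul hK0.le, mul_comm K, ← rpow_add_one hK0.ne']
      exact rpow_le_rpow_of_exponent_le hK1.le (by norm_num)
    have hcd : (B₂.card : ℝ) ≤ K := by
      rw [hKdef]
      exact_mod_cast ((card_le_card (filter_subset _ _)).trans
        (card_le_card (filter_subset _ _))).trans hcard
    calc ∑ p ∈ B₂, 1 / (p : ℝ) ≤ B₂.card • (1 / (K * K ^ (12 / 1000 : ℝ))) :=
          sum_le_card_nsmul _ _ _ hterm
      _ ≤ K * (1 / (K * K ^ (12 / 1000 : ℝ))) := by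
          rw [nsmul_eq_mul]; exact mul_le_mul_of_nonneg_right hcd (by positivity)
      _ = 1 / K ^ (12 / 1000 : ℝ) := by field_simp
      _ ≤ 1 / 2000 := div_le_div_of_nonneg_left zero_le_one (by norm_num) hB'
      _ = _ := by norm_num
  have hsB : ∑ p ∈ B, 1 / (p : ℝ) ≤ 0.4315 := by
    rw [← sum_filter_add_sum_filter_not B (fun p : ℕ => (p : ℝ) ≤ W ^ ((101 / 100 : ℝ) ^ 43))]
    exact (add_le_add hs1 hs2).trans (by norm_num)
  have hsq : ∑ p ∈ S, 1 / (p : ℝ) ^ 2 ≤ 0.001 := by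
    calc ∑ p ∈ S, 1 / (p : ℝ) ^ 2 ≤ ∑ p ∈ S, 1 / (p : ℝ) * (1 / X) := by
          refine sum_le_sum fun p hp => ?_
          have hp0 : (0 : ℝ) < p := by exact_mod_cast (hprime p (mem_filter.1 hp).1).pos
          rw [sq, ← one_div_mul_one_div]
          exact mul_le_mul_of_nonneg_left (div_le_div_of_nonneg_left zero_le_one
            (by linarith) (hpX p (mem_filter.1 hp).1).le) (by positivity)
      _ = (∑ p ∈ S, 1 / (p : ℝ)) * (1 / X) := (sum_mul _ _ _).symm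
      _ ≤ 0.8 * (1 / 1000) := mul_le_mul hs (div_le_div_of_nonneg_left zero_le_one (by norm_num) hA)
          (by positivity) (by norm_num)
      _ ≤ _ := by norm_num
  have hcS : (S.card : ℝ) ≤ W := by
    have h : S ⊆ Icc 1 ⌊W⌋₊ := fun p hp => mem_Icc.2
      ⟨(hprime p (mem_filter.1 hp).1).one_lt.le, Nat.le_floor (mem_filter.1 hp).2⟩
    calc (S.card : ℝ) ≤ (⌊W⌋₊ : ℝ) := by exact_mod_cast (card_le_card h).trans (by simp)
      _ ≤ W := Nat.floor_le (by positivity)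
  have hcB : (B.card : ℝ) ≤ K := by
    rw [hKdef]
    exact_mod_cast (card_le_card (filter_subset _ _)).trans hcard
  set s := ∑ p ∈ S, 1 / (p : ℝ)
  have hf : 0.4346 ≤ 1 - s + s ^ 2 / 2 - s ^ 3 / 6 := by
    have hd : 0 ≤ (0.8 - s) * (1 - (0.8 + s) / 2 + (0.64 + 0.8 * s + s ^ 2) / 6) :=
      mul_nonneg (by linarith) (by nlinarith [sq_nonneg (s - 1.1)])
    nlinarith
  have hW1 : 1 ≤ W := one_le_rpow hK1.le (by norm_num)
  have herr : (S.card : ℝ) + (S.card : ℝ) ^ 2 + (S.card : ℝ) ^ 3 + B.card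
      ≤ 4 * K ^ (198 / 100 : ℝ) := by
    have h3 : W ^ 3 = K ^ (198 / 100 : ℝ) := by
      rw [hW, ← rpow_natCast _ 3, ← rpow_mul hK0.le]; norm_num
    have hK : K ≤ K ^ (198 / 100 : ℝ) := self_le_rpow_of_one_le hK1.le (by norm_num)
    have hcS0 : (0 : ℝ) ≤ S.card := Nat.cast_nonneg _
    have hp2 : (S.card : ℝ) ^ 2 ≤ W ^ 3 :=
      (pow_le_pow_left₀ hcS0 hcS 2).trans (pow_le_pow_right₀ hW1 (by norm_num))
    have hp3 : (S.card : ℝ) ^ 3 ≤ W ^ 3 := pow_le_pow_left₀ hcS0 hcS 3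
    have hp1 : (S.card : ℝ) ≤ W ^ 3 := hcS.trans (le_self_pow₀ hW1 (by norm_num))
    linarith
  have hmain := bonferroni a L S B (fun p hp => hprime p (mem_filter.1 hp).1)
    (fun p hp => hprime p (mem_filter.1 hp).1)
  have hLpos : 0 < (L : ℝ) * 0.002 - 4 * K ^ (198 / 100 : ℝ) := by
    have : K ^ (198 / 100 : ℝ) * 10001 ≤ L := by
      calc K ^ (198 / 100 : ℝ) * 10001 ≤ K ^ (198 / 100 : ℝ) * K ^ (1 / 100 : ℝ) :=
            mul_le_mul_of_nonneg_left hD (by positivity)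
        _ = K ^ (199 / 100 : ℝ) := by rw [← rpow_add hK0]; norm_num
        _ ≤ L := hL
    have : 0 < K ^ (198 / 100 : ℝ) := rpow_pos_of_pos hK0 _
    linarith
  have hcoef := mul_le_mul_of_nonneg_left
    (show (0.002 : ℝ) ≤ 1 - s + s ^ 2 / 2 - s ^ 3 / 6
      - (∑ p ∈ S, 1 / (p : ℝ) ^ 2) / 2 - ∑ p ∈ B, 1 / (p : ℝ) by linarith)
    (Nat.cast_nonneg L : (0 : ℝ) ≤ L)
  obtain ⟨x, hx⟩ := card_pos.1 (Nat.cast_pos.1 (lt_of_lt_of_le (by linarith) hmain))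
  obtain ⟨hxI, hxS, hxB⟩ := mem_filter.1 hx
  refine ⟨x, hxI, ?_⟩
  by_contra hne
  obtain ⟨p, hp, hpd⟩ := Nat.exists_prime_and_dvd hne
  have hpx : (p : ℤ) ∣ x := Int.natCast_dvd.2 (hpd.trans (Nat.gcd_dvd_left _ _))
  have hpn : p ∣ n := by simpa using hpd.trans (Nat.gcd_dvd_right _ _)
  have hpP : p ∈ P := Nat.mem_primeFactors.2 ⟨hp, hpn, hn⟩
  by_cases hpW : (p : ℝ) ≤ W
  · exact hxS p (mem_filter.2 ⟨hpP, hpW⟩) hpx
  · exact hxB p (mem_filter.2 ⟨hpP, hpW⟩) hpx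

end Vale.Agent.P013
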